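import Vale.Agent.P141.H609.NodeStep

/-!
# P141, line (A): comparison of the pair sums of a stack with the static ones

* `phi_stack_le`: `φ(ν U Y Uᵀ) ≤ ε⁻² U φ(ν ε² Y) Uᵀ` for `Uᵀ U ≥ ε²`, `Y = c cᵀ`;
* `RP_cmpL`, `RP_cmpR`: if the Gram matrix of `F` is at most `K²` times the Gram matrix of `F'`
  at every node then the pair sum of `F` at the level `x` is at most `K²` times the one of `F'` at
  the level `x / K`.
-/

namespace Vale.Agent.P141.H257

open Finset Matrix Vale.Agent.P075 Vale.Agent.P141.PL Vale.Agent.P141.PL.H588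
open Vale.Agent.P141.PL.H804 Vale.Agent.P141.H958 Vale.Agent.P141.H609

noncomputable section

section mat

variable {m n p : Type*} [Fintype m] [DecidableEq m] [Fintype n] [DecidableEq n] [Fintype p]
  [DecidableEq p]

/-- monotonicity of `φ`, difference form -/
theorem phi_mono' {X Y : Matrix n n ℝ} (hX : X.PosSemidef) (h : (Y - X).PosSemidef) :
    (phi Y - phi X).PosSemidef := by
  have h1 := phi_mono hX h
  rwa [add_sub_cancel] at h1

/-- the stack at one level is below the moved static cut at a higher level -/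
theorem phi_stack_le {ν ε : ℝ} (hν : 0 ≤ ν) (hε : 0 < ε) (U : Matrix p m ℝ) (c : Matrix m n ℝ)
    (hU : (Uᵀ * U - ε ^ 2 • (1 : Matrix m m ℝ)).PosSemidef) :
    ((ε ^ 2)⁻¹ • (U * phi ((ν * ε ^ 2) • (c * cᵀ)) * Uᵀ) -
      phi (ν • ((U * c) * (U * c)ᵀ))).PosSemidef := by
  set r : ℝ := √ν with hr
  have hr2 : r * r = ν := Real.mul_self_sqrt hν
  have e1 : phi (ν • ((U * c) * (U * c)ᵀ)) =
      ν • (U * (c * res (ν • ((U * c)ᵀ * (U * c))) * cᵀ) * Uᵀ) := by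
    have h := phi_row (r • (U * c))
    have g1 : (r • (U * c)) * (r • (U * c))ᵀ = ν • ((U * c) * (U * c)ᵀ) := by
      rw [transpose_smul, Matrix.smul_mul, Matrix.mul_smul, smul_smul, hr2]
    have g2 : (r • (U * c))ᵀ * (r • (U * c)) = ν • ((U * c)ᵀ * (U * c)) := by
      rw [transpose_smul, Matrix.smul_mul, Matrix.mul_smul, smul_smul, hr2]
    rw [g1, g2] at h
    rw [← h, transpose_smul, Matrix.smul_mul, Matrix.smul_mul, Matrix.mul_smul, smul_smul, hr2,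
      transpose_mul]
    simp only [Matrix.mul_assoc]
  set q : ℝ := r * ε with hq
  have hq2 : q * q = ν * ε ^ 2 := by
    rw [hq, mul_mul_mul_comm, hr2]
    ring
  have e2 : phi ((ν * ε ^ 2) • (c * cᵀ)) =
      (ν * ε ^ 2) • (c * res ((ν * ε ^ 2) • (cᵀ * c)) * cᵀ) := by
    have h := phi_row (q • c)
    have g1 : (q • c) * (q • c)ᵀ = (ν * ε ^ 2) • (c * cᵀ) := by
      rw [transpose_smul, Matrix.smul_mul, Matrix.mul_smul, smul_smul, hq2]
    have g2 : (q • c)ᵀ * (q • c) = (ν * ε ^ 2) • (cᵀ * c) := by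
      rw [transpose_smul, Matrix.smul_mul, Matrix.mul_smul, smul_smul, hq2]
    rw [g1, g2] at h
    rw [← h, transpose_smul, Matrix.smul_mul, Matrix.smul_mul, Matrix.mul_smul, smul_smul, hq2]
  have hA : ((ν * ε ^ 2) • (cᵀ * c)).PosSemidef := (gram_psd c).smul (by positivity)
  have hB : (ν • ((U * c)ᵀ * (U * c)) - (ν * ε ^ 2) • (cᵀ * c)).PosSemidef := by
    have h := (psd_conj hU cᵀ).smul hν
    rw [transpose_transpose] at h
    have e : ν • (cᵀ * (Uᵀ * U - ε ^ 2 • (1 : Matrix m m ℝ)) * c) =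
        ν • ((U * c)ᵀ * (U * c)) - (ν * ε ^ 2) • (cᵀ * c) := by
      rw [Matrix.mul_sub, Matrix.sub_mul, smul_sub, transpose_mul, Matrix.mul_smul,
        Matrix.mul_one, Matrix.smul_mul, smul_smul]
      simp only [Matrix.mul_assoc]
    rwa [e] at h
  have hC := res_anti hA hB
  rw [add_sub_cancel] at hC
  have hD := (psd_conj (psd_conj hC c) U).smul hν
  have e3 : ν • (U * (c * (res ((ν * ε ^ 2) • (cᵀ * c)) - res (ν • ((U * c)ᵀ * (U * c)))) * cᵀ) *
      Uᵀ) = (ε ^ 2)⁻¹ • (U * phi ((ν * ε ^ 2) • (c * cᵀ)) * Uᵀ) -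
      phi (ν • ((U * c) * (U * c)ᵀ)) := by
    rw [e1, e2, Matrix.mul_smul, Matrix.smul_mul, smul_smul,
      show (ε ^ 2)⁻¹ * (ν * ε ^ 2) = ν by field_simp]
    simp only [Matrix.mul_sub, Matrix.sub_mul, smul_sub]
  rwa [e3] at hD

end mat

/-! ### Pair sums -/

variable {N : ℕ} {s : ℕ → Finset Pt} {F F' H H' : NM}

/-- the saturated Gram matrix of a dominated matrix -/
theorem sat_cmp {n : Type*} [Fintype n] [DecidableEq n] {X X' : Matrix n n ℝ} {K x : ℝ}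
    (hX : X.PosSemidef) (hK : 0 < K) (hx : 0 < x) (h : (K ^ 2 • X' - X).PosSemidef) {w : ℝ}
    (hw : 0 ≤ w) :
    ((K ^ 2 * (x / K) ^ 2) • phi ((((x / K) ^ 2)⁻¹ * w) • X') -
      x ^ 2 • phi (((x ^ 2)⁻¹ * w) • X)).PosSemidef := by
  have h1 : ((((x ^ 2)⁻¹ * w) • X)).PosSemidef := hX.smul (by positivity)
  have h2 : (((((x / K) ^ 2)⁻¹ * w) • X') - ((x ^ 2)⁻¹ * w) • X).PosSemidef := by
    have h3 := h.smul (by positivity : (0 : ℝ) ≤ (x ^ 2)⁻¹ * w)
    have e : ((x ^ 2)⁻¹ * w) • (K ^ 2 • X' - X) =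
        ((((x / K) ^ 2)⁻¹ * w) • X') - ((x ^ 2)⁻¹ * w) • X := by
      rw [smul_sub, smul_smul]
      congr 2
      field_simp
    rwa [e] at h3
  have h4 := (phi_mono' h1 h2).smul (by positivity : (0 : ℝ) ≤ x ^ 2)
  have e : K ^ 2 * (x / K) ^ 2 = x ^ 2 := by field_simp
  rw [e]
  rwa [smul_sub] at h4

/-- **Comparison, first function.** -/
theorem RP_cmpL {x y K : ℝ} (hK : 0 < K) (hx : 0 < x)
    (h : ∀ k ∈ Icc 1 N, ∀ m ∈ s k, (K ^ 2 • ((F' k m)ᵀ * F' k m) - (F k m)ᵀ * F k m).PosSemidef) :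
    RP N s x y F H ≤ K ^ 2 * RP N s (x / K) y F' H := by
  unfold RP
  rw [mul_sum]
  refine sum_le_sum fun k hk => ?_
  rw [mul_sum]
  refine sum_le_sum fun m hm => ?_
  have h1 := sat_cmp (gram_psd (F k m)) hK hx (h k hk m hm) (by positivity : (0 : ℝ) ≤ (4 ^ k)⁻¹)
  set P := phi (gramC ((x ^ 2)⁻¹ * (4 ^ k)⁻¹) (F k m)) with hP
  set P' := phi (gramC (((x / K) ^ 2)⁻¹ * (4 ^ k)⁻¹) (F' k m)) with hP'
  set Q := phi (gramR ((y ^ 2)⁻¹ * (4 ^ k)⁻¹) (H k m)) with hQ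
  have pQ : (y ^ 2 • Q).PosSemidef :=
    (phi_psd (gramR_psd (by positivity) _)).smul (by positivity)
  have i1 : ((x ^ 2 • P) * (hd k * (y ^ 2 • Q) * hd k)).trace ≤
      (((K ^ 2 * (x / K) ^ 2) • P') * (hd k * (y ^ 2 • Q) * hd k)).trace :=
    trace_mul_le_left (psd_conj_symm pQ (hd_symm k)) h1
  have e : ∀ (p q : ℝ) (X Y : Matrix (Ix k) (Ix k) ℝ),
      ((p • X) * (hd k * (q • Y) * hd k)).trace = p * q * (X * (hd k * Y * hd k)).trace := by
    intro p q X Y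
    simp only [Matrix.mul_smul, Matrix.smul_mul, trace_smul, smul_eq_mul]
    ring
  rw [e, e] at i1
  have i4 := mul_le_mul_of_nonneg_left i1 (by positivity : (0 : ℝ) ≤ 4 ^ k)
  rw [M2, M2]
  linarith

/-- **Comparison, second function.** -/
theorem RP_cmpR {x y K : ℝ} (hK : 0 < K) (hy : 0 < y)
    (h : ∀ k ∈ Icc 1 N, ∀ m ∈ s k, (K ^ 2 • (H' k m * (H' k m)ᵀ) - H k m * (H k m)ᵀ).PosSemidef) :
    RP N s x y F H ≤ K ^ 2 * RP N s x (y / K) F H' := by
  unfold RP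
  rw [mul_sum]
  refine sum_le_sum fun k hk => ?_
  rw [mul_sum]
  refine sum_le_sum fun m hm => ?_
  have h1 := sat_cmp (gram_psd' (H k m)) hK hy (h k hk m hm) (by positivity : (0 : ℝ) ≤ (4 ^ k)⁻¹)
  set P := phi (gramC ((x ^ 2)⁻¹ * (4 ^ k)⁻¹) (F k m)) with hP
  set Q := phi (gramR ((y ^ 2)⁻¹ * (4 ^ k)⁻¹) (H k m)) with hQ
  set Q' := phi (gramR (((y / K) ^ 2)⁻¹ * (4 ^ k)⁻¹) (H' k m)) with hQ'
  have pP : (x ^ 2 • P).PosSemidef :=
    (phi_psd (gramC_psd (by positivity) _)).smul (by positivity)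
  have i1 : ((x ^ 2 • P) * (hd k * (y ^ 2 • Q) * hd k)).trace ≤
      ((x ^ 2 • P) * (hd k * ((K ^ 2 * (y / K) ^ 2) • Q') * hd k)).trace := by
    refine trace_mul_le_right pP ?_
    have h2 := psd_conj_symm h1 (hd_symm k)
    rwa [Matrix.mul_sub, Matrix.sub_mul] at h2
  have e : ∀ (p q : ℝ) (X Y : Matrix (Ix k) (Ix k) ℝ),
      ((p • X) * (hd k * (q • Y) * hd k)).trace = p * q * (X * (hd k * Y * hd k)).trace := by
    intro p q X Y
    simp only [Matrix.mul_smul, Matrix.smul_mul, trace_smul, smul_eq_mul]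
    ring
  rw [e, e] at i1
  have i4 := mul_le_mul_of_nonneg_left i1 (by positivity : (0 : ℝ) ≤ 4 ^ k)
  rw [M2, M2]
  linarith

/-- **The moved pair sum at a low level against a static pair sum bounded by the square of the
higher level.** -/
theorem RP_cmp_max {P₀ K τ : ℝ} (hK : 0 < K)
    (h : ∀ k ∈ Icc 1 N, ∀ m ∈ s k, (K ^ 2 • ((F' k m)ᵀ * F' k m) - (F k m)ᵀ * F k m).PosSemidef)
    (h0 : ∀ x, 0 < x → x ≤ τ → RP N s x x F' H ≤ P₀ * x ^ 2) {x y : ℝ} (hx : 0 < x) (hy : 0 < y)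
    (hxy : K * y ≤ x) (hxτ : x / K ≤ τ) : RP N s x y F H ≤ P₀ * x ^ 2 := by
  have h1 := RP_cmpL (y := y) (H := H) hK hx h
  have h2 : y ≤ x / K := by
    rw [le_div_iff₀ hK, mul_comm]
    exact hxy
  have hxK : 0 < x / K := by positivity
  have h3 := (RP_mono (N := N) (s := s) (F := F') (H := H) hxK hy le_rfl h2).trans
    (h0 (x / K) hxK hxτ)
  have h4 := mul_le_mul_of_nonneg_left h3 (by positivity : 0 ≤ K ^ 2)
  refine h1.trans (h4.trans (le_of_eq ?_))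
  field_simp

end

end Vale.Agent.P141.H257
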